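import Mathlib
import Vale.Agent.P015.Wall

namespace Vale.Agent.Results.P015.LineDeviation

open Vale.Agent.P015

theorem result (D : ℝ) (z : ℕ → GaussianInt)
    (hprime : ∀ n, Irreducible (z n))
    (hdistinct : Function.Injective z)
    (hstep : ∀ n, dist (z n : ℂ) (z (n + 1) : ℂ) ≤ D)
    (p v : ℂ) (hv : v ≠ 0) :
    ∃ᶠ n in Filter.atTop,
      Real.log ‖(z n : ℂ)‖ / Real.log (Real.log ‖(z n : ℂ)‖)
        ≤ 8 * (D + 1) * Metric.infDist (z n : ℂ) (Set.range fun t : ℝ => p + (t : ℂ) * v) := by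
  rw [Filter.frequently_atTop]
  intro N
  have hD0 : 0 ≤ D := le_trans dist_nonneg (hstep 0)
  have hfl : ((⌊D⌋₊ : ℕ) : ℝ) ≤ D := Nat.floor_le hD0
  have hre : ∀ w : GaussianInt, (w : ℂ).re = (w.re : ℝ) := fun w => by simp
  have him : ∀ w : GaussianInt, (w : ℂ).im = (w.im : ℝ) := fun w => by simp
  have hstepx : ∀ n, |(z (n + 1)).re - (z n).re| ≤ ((⌊D⌋₊ : ℕ) : ℤ) := by
    intro n
    have h1 : |((z (n + 1) : ℂ) - (z n : ℂ)).re| ≤ D := by
      refine le_trans (Complex.abs_re_le_norm _) ?_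
      rw [← dist_eq_norm, dist_comm]
      exact hstep n
    rw [Complex.sub_re, hre, hre] at h1
    rw [Int.abs_eq_natAbs]
    have h2 : (((((z (n + 1)).re - (z n).re).natAbs : ℕ)) : ℝ) ≤ D := by
      have h3 : (((((z (n + 1)).re - (z n).re).natAbs : ℕ)) : ℝ)
          = |(((z (n + 1)).re - (z n).re : ℤ) : ℝ)| := by
        rw [Nat.cast_natAbs, Int.cast_abs]
      rw [h3]
      push_cast
      exact h1
    exact_mod_cast Nat.le_floor h2
  have hstepy : ∀ n, |(z (n + 1)).im - (z n).im| ≤ ((⌊D⌋₊ : ℕ) : ℤ) := by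
    intro n
    have h1 : |((z (n + 1) : ℂ) - (z n : ℂ)).im| ≤ D := by
      refine le_trans (Complex.abs_im_le_norm _) ?_
      rw [← dist_eq_norm, dist_comm]
      exact hstep n
    rw [Complex.sub_im, him, him] at h1
    rw [Int.abs_eq_natAbs]
    have h2 : (((((z (n + 1)).im - (z n).im).natAbs : ℕ)) : ℝ) ≤ D := by
      have h3 : (((((z (n + 1)).im - (z n).im).natAbs : ℕ)) : ℝ)
          = |(((z (n + 1)).im - (z n).im : ℤ) : ℝ)| := by
        rw [Nat.cast_natAbs, Int.cast_abs]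
      rw [h3]
      push_cast
      exact h1
    exact_mod_cast Nat.le_floor h2
  have hinj : Function.Injective (fun n => ((z n).re, (z n).im)) := by
    intro a b hab
    simp only [Prod.mk.injEq] at hab
    exact hdistinct (Zsqrtd.ext hab.1 hab.2)
  have hv' : v.re ≠ 0 ∨ v.im ≠ 0 := by
    by_contra hcon
    rw [not_or, not_not, not_not] at hcon
    exact hv (Complex.ext hcon.1 hcon.2)
  obtain ⟨n, hNn, hn⟩ := core_all ⌊D⌋₊ (fun n => (z n).re) (fun n => (z n).im)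
    (fun n => hprime n) hinj hstepx hstepy v.re v.im p.re p.im hv' N
  refine ⟨n, hNn, ?_⟩
  have hnorm : ‖(z n : ℂ)‖ = Real.sqrt (((z n).re : ℝ) ^ 2 + ((z n).im : ℝ) ^ 2) := by
    rw [Complex.norm_eq_sqrt_sq_add_sq, hre, him]
  have hvnorm : ‖v‖ = Real.sqrt (v.re ^ 2 + v.im ^ 2) := Complex.norm_eq_sqrt_sq_add_sq v
  rw [hnorm]
  refine le_trans hn ?_
  have hvpos : 0 < ‖v‖ := norm_pos_iff.mpr hv
  set W : ℝ := (((z n).im : ℝ) - p.im) * v.re - (((z n).re : ℝ) - p.re) * v.im with hW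
  have hinf : |W| / Real.sqrt (v.re ^ 2 + v.im ^ 2)
      ≤ Metric.infDist (z n : ℂ) (Set.range fun t : ℝ => p + (t : ℂ) * v) := by
    rw [← hvnorm]
    rw [Metric.le_infDist (Set.range_nonempty _)]
    rintro _ ⟨t, rfl⟩
    rw [div_le_iff₀ hvpos, dist_eq_norm]
    have h1 : (((z n : ℂ) - (p + (t : ℂ) * v)) * (starRingEnd ℂ) v).im = W := by
      rw [hW]
      simp only [Complex.mul_im, Complex.sub_re, Complex.sub_im, Complex.add_re, Complex.add_im,
        Complex.mul_re, Complex.ofReal_re, Complex.ofReal_im, Complex.conj_re, Complex.conj_im,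
        hre, him]
      ring
    rw [← h1]
    refine le_trans (Complex.abs_im_le_norm _) ?_
    rw [norm_mul, Complex.norm_conj]
  have hinf0 : 0 ≤ |W| / Real.sqrt (v.re ^ 2 + v.im ^ 2) := by positivity
  have hc1 : 8 * (((⌊D⌋₊ : ℕ) : ℝ) + 1) ≤ 8 * (D + 1) := by linarith
  calc 8 * (((⌊D⌋₊ : ℕ) : ℝ) + 1) * (|W| / Real.sqrt (v.re ^ 2 + v.im ^ 2))
      ≤ 8 * (D + 1) * (|W| / Real.sqrt (v.re ^ 2 + v.im ^ 2)) :=
        mul_le_mul_of_nonneg_right hc1 hinf0
    _ ≤ 8 * (D + 1) * Metric.infDist (z n : ℂ) (Set.range fun t : ℝ => p + (t : ℂ) * v) :=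
        mul_le_mul_of_nonneg_left hinf (by linarith)

end Vale.Agent.Results.P015.LineDeviation
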