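import Mathlib
import Vale.Agent.Results.P015.LineDeviation

namespace Vale.Agent.Results.P015.M_NoWalkNearLine

/-- No infinite walk with bounded steps on pairwise distinct Gaussian primes stays, from some
point on, in the logarithmically widening neighbourhood
`8 (D + 1) dist(z, l) < log |z| / log log |z|` of a straight line `l`. -/
theorem result (D : ℝ) (z : ℕ → GaussianInt)
    (hprime : ∀ n, Irreducible (z n))
    (hdistinct : Function.Injective z)
    (hstep : ∀ n, dist (z n : ℂ) (z (n + 1) : ℂ) ≤ D)
    (p v : ℂ) (hv : v ≠ 0) :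
    ¬ ∃ N : ℕ, ∀ n, N ≤ n →
      8 * (D + 1) * Metric.infDist (z n : ℂ) (Set.range fun t : ℝ => p + (t : ℂ) * v)
        < Real.log ‖(z n : ℂ)‖ / Real.log (Real.log ‖(z n : ℂ)‖) := by
  rintro ⟨N, hN⟩
  have h := Vale.Agent.Results.P015.LineDeviation.result D z hprime hdistinct hstep p v hv
  rw [Filter.frequently_atTop] at h
  obtain ⟨n, hn, hle⟩ := h N
  exact absurd (hN n hn) (not_lt.mpr hle)

end Vale.Agent.Results.P015.M_NoWalkNearLine
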